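import Vale.Agent.P220.R2.H252.G.Theta
import Vale.Agent.P220.R2.H252.G.Push
import Vale.Agent.P220.R2.H481.Conf5
import Vale.Agent.P220.R2.H252.Trap

/-!
The leafwise isotopy of `L` along the field of the extended angle.
-/

open Set Filter Topology
open scoped ContDiff Manifold

set_option linter.unusedSectionVars false

namespace Vale.Agent.P220.R2.H57

/-- A function whose derivative is positive at every point where it takes the value `R` does not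
come back to `R` from above. -/
theorem stay' {A A' : ℝ → ℝ} {R : ℝ} (hA : ∀ t, HasDerivAt A (A' t) t)
    (h : ∀ t, A t = R → 0 < A' t) {s₀ s : ℝ} (h0 : R < A s₀) (hs : s₀ ≤ s) : R < A s := by
  by_contra hcon
  have hAs : A s ≤ R := not_lt.1 hcon
  have hc : Continuous A := continuous_iff_continuousAt.2 fun t => (hA t).continuousAt
  set S : Set ℝ := Icc s₀ s ∩ {t | A t ≤ R} with hS
  have hSc : IsCompact S := isCompact_Icc.inter_right (isClosed_le hc continuous_const)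
  have hSne : S.Nonempty := ⟨s, ⟨hs, le_refl s⟩, hAs⟩
  have hmem := hSc.sInf_mem hSne
  set t := sInf S with ht
  have hlt : ∀ x, s₀ ≤ x → x < t → R < A x := by
    intro x hx hxt
    by_contra hcon
    have : x ∈ S := ⟨⟨hx, hxt.le.trans hmem.1.2⟩, not_lt.1 hcon⟩
    exact absurd (csInf_le hSc.bddBelow this) (not_le.2 hxt)
  have hst : s₀ < t := by
    rcases eq_or_lt_of_le hmem.1.1 with h | h
    · exfalso
      have h2 : A t ≤ R := hmem.2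
      rw [← h] at h2
      exact absurd h0 (not_lt.2 h2)
    · exact h
  have hev : ∀ᶠ x in 𝓝[<] t, R < A x := by
    filter_upwards [Ioo_mem_nhdsLT hst] with x hx
    exact hlt x hx.1.le hx.2
  have h3 : A t = R := by
    refine le_antisymm hmem.2 ?_
    exact ge_of_tendsto (hc.continuousAt.mono_left nhdsWithin_le_nhds) (hev.mono fun t ht => ht.le)
  have h4 : Tendsto (slope A t) (𝓝[<] t) (𝓝 (A' t)) :=
    (hasDerivAt_iff_tendsto_slope.1 (hA t)).mono_left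
      (nhdsWithin_mono _ fun t ht => ne_of_lt ht)
  have h5 : A' t ≤ 0 := by
    refine le_of_tendsto h4 ?_
    filter_upwards [hev, self_mem_nhdsWithin] with x hx hxt
    have hxt' : x < t := hxt
    rw [slope_def_field, h3]
    exact div_nonpos_of_nonneg_of_nonpos (by linarith) (by linarith)
  exact absurd (h t h3) (not_lt.2 h5)

variable {E : Type} [NormedAddCommGroup E] [InnerProductSpace ℝ E] [FiniteDimensional ℝ E]

namespace Base

variable {D : Base E}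

namespace Leaf

variable (Λ : D.Leaf)

/-- the leafwise time is bounded below in the future and bounded above in the past -/
theorem T_bound : ∃ C : ℝ, ∀ z ∈ D.L, (∀ σ, 0 ≤ σ → -C ≤ Λ.T σ z) ∧ ∀ σ, σ ≤ 0 → Λ.T σ z ≤ C := by
  obtain ⟨S, hS, hdrift⟩ := Λ.drift
  have hK : IsCompact (Icc (0 : ℝ) S ×ˢ D.L) := isCompact_Icc.prod D.cL
  obtain ⟨C, hC⟩ := hK.exists_bound_of_continuousOn (f := fun x : ℝ × (E × E) => Λ.T x.1 x.2)
    Λ.cont_T.continuousOn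
  have hC0 : 0 ≤ C := by
    obtain ⟨z, hz⟩ := D.ne
    exact (norm_nonneg _).trans (hC (0, z) ⟨⟨le_refl 0, hS.le⟩, hz⟩)
  have h1 : ∀ z ∈ D.L, ∀ σ, 0 ≤ σ → -C ≤ Λ.T σ z := by
    intro z hz σ hσ
    rcases le_total σ S with h | h
    · exact (abs_le.1 (hC (σ, z) ⟨⟨hσ, h⟩, hz⟩)).1
    · have := hdrift z hz σ h
      linarith
  refine ⟨C, fun z hz => ⟨h1 z hz, fun σ hσ => ?_⟩⟩
  have h2 := h1 _ (Λ.ζ_mem hz σ) (-σ) (by linarith)
  have h3 := Λ.T_add hz (-σ) σ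
  rw [neg_add_cancel, Λ.T_zero] at h3
  linarith

/-- the leafwise curves are injective -/
theorem curve_inj {z : E × E} (hz : z ∈ D.L) :
    Function.Injective fun σ => ((Λ.T σ z, D.h (Λ.ζ σ z)) : ℝ × ℝ) := by
  intro σ σ' h
  have h1 : Λ.T σ z = Λ.T σ' z := congrArg Prod.fst h
  have h2 : D.h (Λ.ζ σ z) = D.h (Λ.ζ σ' z) := congrArg Prod.snd h
  by_contra hne
  have h3 := Λ.T_add hz (σ' - σ) σ
  rw [sub_add_cancel] at h3
  have h4 := Λ.no_return (Λ.ζ_mem hz σ) (σ := σ' - σ) (sub_ne_zero.2 (Ne.symm hne)) (by linarith)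
  rw [← Λ.hζ.add, sub_add_cancel] at h4
  exact h4 h2.symm

theorem tendsto_T {z : E × E} (hz : z ∈ D.L) : Tendsto (fun σ => Λ.T σ z) atTop atTop ∧
    Tendsto (fun σ => Λ.T σ z) atBot atBot := by
  obtain ⟨C, hC⟩ := Λ.T_bound
  constructor
  · rw [tendsto_atTop_atTop]
    intro b
    obtain ⟨⟨σ₁, -, h1⟩, -⟩ := Λ.T_large hz (b + C)
    refine ⟨σ₁, fun σ hσ => ?_⟩
    have h2 := Λ.T_add hz (σ - σ₁) σ₁
    rw [sub_add_cancel] at h2
    have h3 := (hC _ (Λ.ζ_mem hz σ₁)).1 (σ - σ₁) (by linarith)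
    linarith
  · rw [tendsto_atBot_atBot]
    intro b
    obtain ⟨-, ⟨σ₁, -, h1⟩⟩ := Λ.T_large hz (b - C)
    refine ⟨σ₁, fun σ hσ => ?_⟩
    have h2 := Λ.T_add hz (σ - σ₁) σ₁
    rw [sub_add_cancel] at h2
    have h3 := (hC _ (Λ.ζ_mem hz σ₁)).2 (σ - σ₁) (by linarith)
    linarith

end Leaf

namespace Fld

variable {Λ : D.Leaf} (A : Fld Λ)

/-- the field in the leaf coordinates -/
noncomputable def W (x : E × (ℝ × ℝ)) : E × (ℝ × ℝ) :=
  (0, (-Real.sin (A.g (D.φ x.2.1 x.1, x.2.2)), Real.cos (A.g (D.φ x.2.1 x.1, x.2.2))))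

theorem W_smooth : ContDiff ℝ ∞ A.W := by
  have h1 : ContDiff ℝ ∞ fun x : E × (ℝ × ℝ) => A.g (D.φ x.2.1 x.1, x.2.2) :=
    A.hg.comp ((D.hφ.smooth.comp ((contDiff_fst.comp contDiff_snd).prodMk contDiff_fst)).prodMk
      (contDiff_snd.comp contDiff_snd))
  exact contDiff_const.prodMk ((Real.contDiff_sin.comp h1).neg.prodMk (Real.contDiff_cos.comp h1))

theorem W_bound (x : E × (ℝ × ℝ)) : ‖A.W x‖ ≤ 1 := by
  unfold W
  rw [Prod.norm_def, Prod.norm_def]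
  refine max_le ?_ (max_le ?_ ?_)
  · simp
  · simpa using Real.abs_sin_le_one _
  · simpa using Real.abs_cos_le_one _

theorem exists_flow : ∃ Ψ : ℝ → E × (ℝ × ℝ) → E × (ℝ × ℝ), IsFlow A.W Ψ :=
  exists_flow_bounded A.W_smooth A.W_bound

variable {A} {Ψ : ℝ → E × (ℝ × ℝ) → E × (ℝ × ℝ)} (hΨ : IsFlow A.W Ψ)

include hΨ

theorem fst_const (s : ℝ) (x : E × (ℝ × ℝ)) : (Ψ s x).1 = x.1 := by
  have h1 : ∀ s, HasDerivAt (fun s => (Ψ s x).1) 0 s := fun s => by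
    have h0 := (hasFDerivAt_fst (𝕜 := ℝ) (p := Ψ s x)).comp_hasDerivAt s (hΨ.deriv s x)
    have h2 : (A.W (Ψ s x)).1 = 0 := rfl
    rw [← h2]
    exact h0
  have h2 := is_const_of_deriv_eq_zero (fun s => (h1 s).differentiableAt)
    (fun s => (h1 s).deriv) s 0
  simp only [hΨ.zero] at h2
  exact h2

theorem equivariant (s a : ℝ) (x : E) (t y : ℝ) : Ψ s (D.φ a x, (t, y)) =
    (D.φ a x, ((Ψ s (x, (t + a, y))).2.1 - a, (Ψ s (x, (t + a, y))).2.2)) := by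
  have h1 := hΨ.uniq (fun s => (D.φ a x, ((Ψ s (x, (t + a, y))).2.1 - a,
    (Ψ s (x, (t + a, y))).2.2))) (fun s => by
      have h2 := (hasFDerivAt_snd (𝕜 := ℝ) (p := Ψ s (x, (t + a, y)))).comp_hasDerivAt s
        (hΨ.deriv s (x, (t + a, y)))
      have h3 := (hasFDerivAt_fst (𝕜 := ℝ) (p := (Ψ s (x, (t + a, y))).2)).comp_hasDerivAt s h2
      have h4 := (hasFDerivAt_snd (𝕜 := ℝ) (p := (Ψ s (x, (t + a, y))).2)).comp_hasDerivAt s h2
      have h5 := (hasDerivAt_const s (D.φ a x)).prodMk ((h3.sub_const a).prodMk h4)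
      have h6 : D.φ ((Ψ s (x, (t + a, y))).2.1 - a) (D.φ a x) =
          D.φ ((Ψ s (x, (t + a, y))).2.1) (Ψ s (x, (t + a, y))).1 := by
        rw [← D.hφ.add, sub_add_cancel, fst_const hΨ]
      have h7 : A.W (D.φ a x, ((Ψ s (x, (t + a, y))).2.1 - a, (Ψ s (x, (t + a, y))).2.2)) =
          (0, ((A.W (Ψ s (x, (t + a, y)))).2.1, (A.W (Ψ s (x, (t + a, y)))).2.2)) := by
        simp only [W, h6]
      rw [h7]
      exact h5) s
  simp only [hΨ.zero, add_sub_cancel_right] at h1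
  exact h1.symm

theorem hasDerivAt_y (x : E × (ℝ × ℝ)) (s : ℝ) : HasDerivAt (fun s => (Ψ s x).2.2)
    (Real.cos (A.g (D.φ (Ψ s x).2.1 (Ψ s x).1, (Ψ s x).2.2))) s := by
  have h2 := (hasFDerivAt_snd (𝕜 := ℝ) (p := Ψ s x)).comp_hasDerivAt s (hΨ.deriv s x)
  exact (hasFDerivAt_snd (𝕜 := ℝ) (p := (Ψ s x).2)).comp_hasDerivAt s h2

theorem hasDerivAt_snd (x : E) (p : ℝ × ℝ) (s : ℝ) : HasDerivAt (fun s => (Ψ s (x, p)).2)
    (-Real.sin (A.g (D.φ (Ψ s (x, p)).2.1 x, (Ψ s (x, p)).2.2)),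
      Real.cos (A.g (D.φ (Ψ s (x, p)).2.1 x, (Ψ s (x, p)).2.2))) s := by
  have h2 := (hasFDerivAt_snd (𝕜 := ℝ) (p := Ψ s (x, p))).comp_hasDerivAt s
    (hΨ.deriv s (x, p))
  have h3 : (A.W (Ψ s (x, p))).2 =
      (-Real.sin (A.g (D.φ (Ψ s (x, p)).2.1 x, (Ψ s (x, p)).2.2)),
        Real.cos (A.g (D.φ (Ψ s (x, p)).2.1 x, (Ψ s (x, p)).2.2))) := by
    simp only [W, fst_const hΨ]
  rw [← h3]
  exact h2

omit hΨ in
theorem R_pos (A : Fld Λ) : 0 < A.R := by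
  obtain ⟨z, hz⟩ := D.ne
  exact (abs_nonneg _).trans_lt (A.hR z hz)

theorem top_stay {x : E × (ℝ × ℝ)} {s₀ s : ℝ} (h : A.R < (Ψ s₀ x).2.2) (hs : s₀ ≤ s) :
    A.R < (Ψ s x).2.2 := by
  refine stay' (A := fun s => (Ψ s x).2.2) (hasDerivAt_y hΨ x) (fun t ht => ?_) h hs
  have h1 : A.g (D.φ (Ψ t x).2.1 (Ψ t x).1, (Ψ t x).2.2) = 0 := by
    apply A.top
    rw [show (D.φ (Ψ t x).2.1 (Ψ t x).1, (Ψ t x).2.2).2 = A.R from ht, abs_of_pos A.R_pos]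
  rw [h1, Real.cos_zero]
  exact one_pos

/-- the orbit of a point of `L` stays over a bounded part of its leaf -/
theorem confine (hone : ∀ z ∈ D.L, ∀ z' ∈ D.L, ∀ t, z'.1 = D.φ t z.1 →
      ∃ σ, Λ.ζ σ z = z' ∧ Λ.T σ z = t)
    (hsurj : ∀ q ∈ D.Q, ∃ z ∈ D.L, z.1 = q) {z : E × E} (hz : z ∈ D.L) :
    ∃ C, ∀ s, 0 ≤ s → |(Ψ s (z.1, (0, D.h z))).2.1| ≤ C := by
  obtain ⟨C, hC⟩ := Λ.T_bound
  have hq := D.sub z hz
  have hφmem : ∀ t, D.φ t z.1 ∈ D.Q := fun t => D.hQ.flow_mem D.hX D.hφ D.tX hq t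
  -- a top point over the good set at time `t`
  have htop : ∀ a : ℝ, ∃ σ, a ≤ Λ.T σ z ∧ Λ.T σ z ≤ a + 1 ∧
      (∀ σ', Λ.T σ' z = Λ.T σ z → D.h (Λ.ζ σ' z) ≤ D.h (Λ.ζ σ z)) ∧
      ∀ y, D.h (Λ.ζ σ z) ≤ y → A.g (D.φ (Λ.T σ z) z.1, y) = 0 := by
    intro a
    obtain ⟨t, ht, htK⟩ := A.good _ (hφmem a)
    rw [← D.hφ.add] at htK
    obtain ⟨z₁, hz₁, hz₁q, hmax⟩ := exists_top hsurj (hφmem (t + a))
    obtain ⟨σ, hσ, hσT⟩ := hone z hz z₁ hz₁ (t + a) hz₁q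
    refine ⟨σ, by rw [hσT]; linarith [ht.1], by rw [hσT]; linarith [ht.2], fun σ' hσ' => ?_,
      fun y hy => ?_⟩
    · rw [hσ]
      refine hmax _ (Λ.ζ_mem hz σ') ?_
      rw [Λ.base hz, hσ', hσT, hz₁q]
    · rw [hσT, ← hz₁q]
      rw [hσ] at hy
      exact A.ray z₁ hz₁ (by rw [hz₁q]; exact htK) hmax y hy
  obtain ⟨σ₁, h1, h1', h1t, h1g⟩ := htop (-C - 2)
  obtain ⟨σ₂, h2, h2', h2t, h2g⟩ := htop (C + 1)
  have hCnn : 0 ≤ C := by
    have := (hC z hz).1 0 (le_refl 0)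
    rw [Λ.T_zero] at this
    linarith
  have hσ₁ : σ₁ < 0 := by
    by_contra hcon
    have := (hC z hz).1 σ₁ (not_lt.1 hcon)
    linarith
  have hσ₂ : 0 < σ₂ := by
    by_contra hcon
    have := (hC z hz).2 σ₂ (not_lt.1 hcon)
    linarith
  set g : ℝ × ℝ → ℝ := fun p => A.g (D.φ p.1 z.1, p.2) with hg
  have hgs : ContDiff ℝ ∞ g :=
    A.hg.comp ((D.hφ.smooth.comp (contDiff_fst.prodMk contDiff_const)).prodMk contDiff_snd)
  have hcc : Continuous fun σ => Λ.u (Λ.ζ σ z) :=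
    Λ.cont_u.comp (Λ.cont_ζ.comp (continuous_id.prodMk continuous_const))
  refine H481.confinement (g := g) hgs
    (c := fun σ => (Λ.T σ z, D.h (Λ.ζ σ z))) (c' := fun σ => Λ.u (Λ.ζ σ z))
    (fun σ => (Λ.hasDerivAt_T hz σ).prodMk (Λ.hasDerivAt_h hz σ)) hcc
    (Λ.curve_inj hz) (fun σ => ?_) (Λ.tendsto_T hz).1 (Λ.tendsto_T hz).2
    (σ₁ := σ₁) (σ₂ := σ₂) h1t h2t h1g h2g
    (γ := fun s => (Ψ s (z.1, (0, D.h z))).2) (fun s => hasDerivAt_snd hΨ _ _ s)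
    (σ₀ := 0) ⟨hσ₁.le, hσ₂.le⟩ (by simp only [hΨ.zero, Λ.T_zero, Λ.hζ.zero])
  have h3 := A.angle _ (Λ.ζ_mem hz σ)
  rw [Λ.base hz] at h3
  exact h3

theorem escape (hone : ∀ z ∈ D.L, ∀ z' ∈ D.L, ∀ t, z'.1 = D.φ t z.1 →
      ∃ σ, Λ.ζ σ z = z' ∧ Λ.T σ z = t)
    (hsurj : ∀ q ∈ D.Q, ∃ z ∈ D.L, z.1 = q) {z : E × E} (hz : z ∈ D.L) :
    ∃ s, 0 ≤ s ∧ A.R < (Ψ s (z.1, (0, D.h z))).2.2 := by
  by_contra hcon
  push Not at hcon
  obtain ⟨C, hC⟩ := confine hΨ hone hsurj hz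
  set x := z.1 with hx
  set y := D.h z with hy
  set m : ℝ := min y (-A.R) - 1 with hm
  have hmy : m < y := by
    have := min_le_left y (-A.R)
    linarith
  have hmR : m < -A.R := by
    have := min_le_right y (-A.R)
    linarith
  have hlow : ∀ s, 0 ≤ s → m < (Ψ s (x, (0, y))).2.2 := by
    intro s hs
    refine stay' (A := fun s => (Ψ s (x, (0, y))).2.2) (hasDerivAt_y hΨ _) (fun t ht => ?_)
      (s₀ := 0) (by simpa [hΨ.zero] using hmy) hs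
    have h1 : A.g (D.φ (Ψ t (x, (0, y))).2.1 (Ψ t (x, (0, y))).1, (Ψ t (x, (0, y))).2.2) = 0 := by
      apply A.top
      rw [show (D.φ (Ψ t (x, (0, y))).2.1 (Ψ t (x, (0, y))).1, (Ψ t (x, (0, y))).2.2).2 = m from ht,
        abs_of_neg (by linarith [A.R_pos])]
      linarith
    rw [h1, Real.cos_zero]
    exact one_pos
  have hg : ContDiff ℝ ∞ fun p : ℝ × ℝ => A.g (D.φ p.1 x, p.2) :=
    A.hg.comp ((D.hφ.smooth.comp (contDiff_fst.prodMk contDiff_const)).prodMk contDiff_snd)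
  refine H252.no_trap hg (γ := fun s => (Ψ s (x, (0, y))).2) (fun s => hasDerivAt_snd hΨ _ _ s)
    (K := Icc (-C) C ×ˢ Icc m A.R) (isCompact_Icc.prod isCompact_Icc) (fun s hs => ?_)
  exact ⟨abs_le.1 (hC s hs), (hlow s hs).le, hcon s hs⟩

theorem escape_uniform (hone : ∀ z ∈ D.L, ∀ z' ∈ D.L, ∀ t, z'.1 = D.φ t z.1 →
      ∃ σ, Λ.ζ σ z = z' ∧ Λ.T σ z = t)
    (hsurj : ∀ q ∈ D.Q, ∃ z ∈ D.L, z.1 = q) :
    ∃ S > 0, ∀ z ∈ D.L, A.R < (Ψ S (z.1, (0, D.h z))).2.2 := by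
  set U : ℝ → Set (E × E) := fun s => {z | 0 ≤ s ∧ A.R < (Ψ s (z.1, (0, D.h z))).2.2} with hU
  have hUo : ∀ s, IsOpen (U s) := by
    intro s
    have h1 : Continuous fun z : E × E => (Ψ s (z.1, (0, D.h z))).2.2 :=
      continuous_snd.comp (continuous_snd.comp ((hΨ.smooth_map s).continuous.comp
        (continuous_fst.prodMk (continuous_const.prodMk D.h_smooth.continuous))))
    exact isOpen_const.inter (isOpen_lt continuous_const h1)
  obtain ⟨t, ht⟩ := D.cL.elim_finite_subcover U hUo (fun z hz => by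
    obtain ⟨s, hs, hs'⟩ := escape hΨ hone hsurj hz
    exact mem_iUnion.2 ⟨s, hs, hs'⟩)
  refine ⟨∑ s ∈ t, |s| + 1, by positivity, fun z hz => ?_⟩
  obtain ⟨s, hst, hs0, hs⟩ := mem_iUnion₂.1 (ht hz)
  refine top_stay hΨ hs ?_
  have h5 : |s| ≤ ∑ s ∈ t, |s| := Finset.single_le_sum (f := fun s => |s|)
    (fun σ _ => abs_nonneg σ) hst
  have := le_abs_self s
  linarith

end Fld

end Base

end Vale.Agent.P220.R2.H57
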